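import Vale.Agent.P089.BC.DefsA

/-! Definitions for the coefficient-free Baum-Connes assembly map (localization algebra picture,
on Hilbert spaces with orthonormal bases indexed by `G` and by `G × ℕ`). -/

namespace Vale.Agent.P089.BC

open scoped InnerProductSpace
open NNReal Matrix

section

variable {G H E : Type} [Group G] [NormedAddCommGroup H] [InnerProductSpace ℂ H]
  [NormedAddCommGroup E] [InnerProductSpace ℂ E]

/-- `q` is a point with rational barycentric coordinates of the Rips complex `P_F(G)`, whose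
simplices are the finite sets `s` with `x y⁻¹ ∈ F` for all `x, y ∈ s`. The group `G` acts on
`P_F(G)` by right translations. -/
def InRips (F : Finset G) (q : G →₀ ℚ) : Prop :=
  (∀ x, 0 ≤ q x) ∧ (q.sum fun _ a => a) = 1 ∧ ∀ x ∈ q.support, ∀ y ∈ q.support, x * y⁻¹ ∈ F

/-- The basis vector with index `(g, n)` is placed at the point `p n · g` of the Rips
complexes; `1` is a vertex of `p n`, and each rational point of which `1` is a vertex occurs
infinitely often. (So each rational point of each of the Rips complexes occurs.) -/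
def IsPlacement (p : ℕ → G →₀ ℚ) : Prop :=
  (∀ n, (∃ F, InRips F (p n)) ∧ 1 ∈ (p n).support) ∧
    ∀ F q, InRips F q → 1 ∈ q.support → {n | p n = q}.Infinite

/-- The point at which the basis vector with index `(g, n)` is placed: the translate `p n · g`. -/
noncomputable def pt (p : ℕ → G →₀ ℚ) (j : G × ℕ) : G →₀ ℚ :=
  (p j.2).mapDomain (· * j.1)

/-- `T` is a `G`-equivariant, locally compact operator of finite propagation on
`ℓ²(G × ℕ) = ℓ²(G) ⊗ ℓ²(ℕ)`, where `G` acts by right translations on `G`. Their closure is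
`C*_r(G) ⊗ 𝒦(ℓ²(ℕ))`. -/
structure IsRoe (c : HilbertBasis (G × ℕ) ℂ E) (T : E →L[ℂ] E) : Prop where
  equivariant : ∀ g h s m n, ⟪c (g * s, m), T (c (h * s, n))⟫_ℂ = ⟪c (g, m), T (c (h, n))⟫_ℂ
  propagation : ∃ S : Finset G, ∀ g h m n, ⟪c (g, m), T (c (h, n))⟫_ℂ ≠ 0 → g * h⁻¹ ∈ S
  compact : ∀ h, ∃ K : E →L[ℂ] E, IsCompactOperator K ∧ ∀ n, K (c (h, n)) = T (c (h, n))

/-- `T` is in the unitization of the equivariant reduced Roe algebra `C*_r(G) ⊗ 𝒦(ℓ²(ℕ))`. -/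
def IsU (c : HilbertBasis (G × ℕ) ℂ E) (T : E →L[ℂ] E) : Prop :=
  ∃ z : ℂ, ∃ S ∈ closure {S | IsRoe c S}, ∀ v, T v = z • v + S v

/-- `T` is a bounded, uniformly continuous path of operators as above, which are supported in
the Rips complex `P_F(G)` and whose propagation, in the `ℓ¹`-metric, tends to zero. -/
structure IsLocal (c : HilbertBasis (G × ℕ) ℂ E) (p : ℕ → G →₀ ℚ) (F : Finset G)
    (T : ℝ≥0 → E →L[ℂ] E) : Prop where
  roe : ∀ t, IsRoe c (T t)
  carrier : ∀ t j k, ⟪c j, T t (c k)⟫_ℂ ≠ 0 → InRips F (p j.2) ∧ InRips F (p k.2)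
  propagation : ∀ ε > 0, ∃ t₀, ∀ t ≥ t₀, ∀ j k, ⟪c j, T t (c k)⟫_ℂ ≠ 0 →
    ((pt p j - pt p k).sum fun _ a => |(a : ℝ)|) ≤ ε
  continuous : UniformContinuous T
  bounded : ∃ C, ∀ t, ‖T t‖ ≤ C

/-- `e` is in the unitization of the equivariant localization algebra `C*_L(P_F(G))^G`, the
closure in the supremum norm of the paths as above. -/
def IsLoc (c : HilbertBasis (G × ℕ) ℂ E) (p : ℕ → G →₀ ℚ) (F : Finset G)
    (e : ℝ≥0 → E →L[ℂ] E) : Prop :=
  ∃ (z : ℂ) (f : ℝ≥0 → E →L[ℂ] E), (∀ t v, e t v = z • v + f t v) ∧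
    ∀ ε > 0, ∃ T, IsLocal c p F T ∧ ∀ t, dist (f t) (T t) ≤ ε

/-- Two idempotent matrices with entries in the subring of `R` given by `S` define the same
element of its `K_0`-group: they become Murray-von Neumann equivalent after adding an identity
matrix. -/
def SameK {R : Type} [Ring R] (S : R → Prop) {κ : Type} [Fintype κ] [DecidableEq κ]
    (e f : Matrix κ κ R) : Prop :=
  ∃ (m : ℕ) (x y : Matrix (κ ⊕ Fin m) (κ ⊕ Fin m) R), (∀ j k, S (x j k) ∧ S (y j k)) ∧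
    x * y = fromBlocks e 0 0 1 ∧ y * x = fromBlocks f 0 0 1

/-- `S` is the operator `T ⊗ e₀₀` on `ℓ²(G) ⊗ ℓ²(ℕ)`. -/
def IsCorner (b : HilbertBasis G ℂ H) (c : HilbertBasis (G × ℕ) ℂ E) (T : H →L[ℂ] H)
    (S : E →L[ℂ] E) : Prop :=
  (∀ g h, ⟪c (g, 0), S (c (h, 0))⟫_ℂ = ⟪b g, T (b h)⟫_ℂ) ∧
    ∀ j k, ¬ (j.2 = 0 ∧ k.2 = 0) → ⟪c j, S (c k)⟫_ℂ = 0

/-- `e` is an idempotent matrix over the unitization of `C*_L(P_F(G))^G`. -/
def IsIdem (c : HilbertBasis (G × ℕ) ℂ E) (p : ℕ → G →₀ ℚ) (F : Finset G) {n : ℕ}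
    (e : ℝ≥0 → Matrix (Fin n) (Fin n) (E →L[ℂ] E)) : Prop :=
  (∀ j k, IsLoc c p F fun t => e t j k) ∧ ∀ t, e t * e t = e t

/-- The class in `K_0(C*_r(G)) ≅ K_0(C*_r(G) ⊗ 𝒦)` of the idempotent matrix `q` is in the image
of the assembly map `μ_0 : K_0^G(E̲G) = colim_F K_0(C*_L(P_F(G))^G) → K_0(C*_r(G) ⊗ 𝒦)`, which
is given by evaluation at time `0`. -/
def InImage (b : HilbertBasis G ℂ H) (c : HilbertBasis (G × ℕ) ℂ E) (p : ℕ → G →₀ ℚ) {m : ℕ}
    (q : Matrix (Fin m) (Fin m) (H →L[ℂ] H)) : Prop :=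
  ∃ (F : Finset G) (n : ℕ) (e f : ℝ≥0 → Matrix (Fin n) (Fin n) (E →L[ℂ] E))
    (q' : Matrix (Fin m) (Fin m) (E →L[ℂ] E)), IsIdem c p F e ∧ IsIdem c p F f ∧
    (∀ j k, IsCorner b c (q j k) (q' j k)) ∧
    SameK (IsU c) (fromBlocks (e 0) 0 0 0) (fromBlocks (f 0) 0 0 q')

/-- The assembly map `μ_0` of `G` is surjective. -/
def AssemblySurjective (b : HilbertBasis G ℂ H) (c : HilbertBasis (G × ℕ) ℂ E)
    (p : ℕ → G →₀ ℚ) : Prop :=
  ∀ (m : ℕ) (q : Matrix (Fin m) (Fin m) (H →L[ℂ] H)), (∀ j k, q j k ∈ CstarR b) →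
    q * q = q → InImage b c p q

end

end Vale.Agent.P089.BC
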