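import Vale.Agent.P089.MathlibUsed

/-! The reduced group C*-algebra, and projections with irrational canonical trace. -/

namespace Vale.Agent.P089.BC

open scoped InnerProductSpace

section

variable {G H : Type} [Group G] [NormedAddCommGroup H] [InnerProductSpace ℂ H]

/-- The reduced group C*-algebra: the norm closure in `B(ℓ²(G))` of the group ring `ℂ[G]`, acting
by left translations. Here `ℓ²(G)` is a Hilbert space `H` with orthonormal basis `b x`, `x ∈ G`. -/
def CstarR (b : HilbertBasis G ℂ H) : Set (H →L[ℂ] H) :=
  closure {T | ∃ a : G →₀ ℂ, ∀ x, T (b x) = a.sum fun g z => z • b (g * x)}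

/-- There is a projection in the reduced group C*-algebra with irrational canonical trace. -/
def IrrationalTrace [CompleteSpace H] (b : HilbertBasis G ℂ H) : Prop :=
  ∃ P ∈ CstarR b, P * P = P ∧ IsSelfAdjoint P ∧ ∃ x : ℝ, Irrational x ∧ ⟪b 1, P (b 1)⟫_ℂ = x

end

end Vale.Agent.P089.BC
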